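import Vale.Agent.P011.D4T.H691.Tr
import Vale.Agent.P011.E6.Fix9
import Vale.Agent.P011.D4.BMove

/-!
Block D4T (helper691): the standard triple, composition of changes of coordinates, transport of the
subgroup generated by the centralisers.
-/

open NumberField Topology

set_option linter.unusedSectionVars false

namespace Vale.Agent.P011.D4T

open Vale.Agent.P011.MPQ Vale.Agent.P011.D4 Vale.Agent.P011.D4.Oct Vale.Agent.P011.E6

section std

variable {k L E : Type} [Field k] [Field L] [Field E] [Algebra k L] [Algebra k E] [Algebra L E]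
  [IsScalarTower k L E] [NeZero (2 : E)] {ρ σ : E ≃ₐ[k] E} {ρL : L ≃ₐ[k] L} {α : E}
  {a b c : kˣ} {q : Lˣ}

theorem tripO_std (h : Trip a b c (gi : Oct a b c) gj gl) (x : OctL E a b c) :
    tripO E h x = x := by
  rw [tripO_apply, oup_gi, oup_gj, oup_gl]
  exact emb_std x

theorem tQ_std (h : Trip a b c (gi : Oct a b c) gj gl) (x : OctL E a b c) :
    tQ E h x = t0 E a b c x := by
  change tripO E h (t0 E a b c ((tripO E h).symm x)) = _
  rw [tripO_std]
  congr 1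
  rw [LinearEquiv.symm_apply_eq, tripO_std]

theorem stab_std (h : Trip a b c (gi : Oct a b c) gj gl) :
    stab ρ σ α q h = stab0 ρ σ α a b c q := by
  ext z
  constructor
  · intro hz x
    have hz' : z.1 * tQ E h = tQ E h * z.1 := hz
    have h1 := congrArg (fun f : OctL E a b c ≃ₗ[E] OctL E a b c => f x) hz'
    change z.1 (tQ E h x) = tQ E h (z.1 x) at h1
    rwa [tQ_std, tQ_std] at h1
  · intro hz
    change z.1 * tQ E h = tQ E h * z.1
    apply LinearEquiv.ext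
    intro x
    change z.1 (tQ E h x) = tQ E h (z.1 x)
    rw [tQ_std, tQ_std]
    exact hz x

end std

namespace H691

variable {k L E : Type} [Field k] [Field L] [Field E] [Algebra k L] [Algebra k E] [Algebra L E]
  [IsScalarTower k L E] [NeZero (2 : k)] [NeZero (2 : E)] {ρ σ : E ≃ₐ[k] E} {ρL : L ≃ₐ[k] L}
  {α : E} {a b c : kˣ} {q : Lˣ}

/-- Composition of changes of coordinates. -/
theorem exists_comp {b1 c1 b2 c2 : kˣ} {j1 l1 : Oct a b c} (h1 : Trip a b1 c1 gi j1 l1)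
    {j2 l2 : Oct a b1 c1} (h2 : Trip a b2 c2 gi j2 l2) :
    ∃ (j l : Oct a b c) (h : Trip a b2 c2 gi j l), ∀ x : OctL E a b2 c2,
      tripO E h x = tripO E h1 (tripO E h2 x) := by
  obtain ⟨Φ, hΦe, hΦm, -, -⟩ := exists_emb h1
  have h := trip_map h2 hΦm
  have hi : Φ gi = gi := by rw [hΦe, B.emb_gi]
  rw [hi] at h
  refine ⟨_, _, h, fun x => ?_⟩
  let Ψ : OctL E a b2 c2 ≃ₗ[E] OctL E a b c := (tripO E h2).trans (tripO E h1)
  have hΨ : ∀ x y, Ψ (x * y) = Ψ x * Ψ y := fun x y => by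
    change tripO E h1 (tripO E h2 (x * y)) = _
    rw [tripO_mul, tripO_mul]
    rfl
  have e0 : ∀ y : Oct a b2 c2, Ψ (oup E y) = oup E (Φ (emb gi j2 l2 y)) := fun y => by
    change tripO E h1 (tripO E h2 (oup E y)) = _
    rw [tripO_oup, tripO_oup, hΦe]
  have ei : Ψ gi = oup E gi := by
    rw [← oup_gi, e0, B.emb_gi, hi]
  have ej : Ψ gj = oup E (Φ j2) := by
    rw [← oup_gj, e0, B.emb_gj]
  have el : Ψ gl = oup E (Φ l2) := by
    rw [← oup_gl, e0, B.emb_gl]
  have h3 := Rl.hom_emb hΨ x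
  rw [ei, ej, el] at h3
  rw [tripO_apply]
  exact h3.symm

theorem cjA_comp {b1 c1 b2 c2 : kˣ} {j1 l1 : Oct a b c} (h1 : Trip a b1 c1 gi j1 l1)
    {j2 l2 : Oct a b1 c1} (h2 : Trip a b2 c2 gi j2 l2) {j l : Oct a b c}
    (h : Trip a b2 c2 gi j l) (hh : ∀ x : OctL E a b2 c2, tripO E h x =
      tripO E h1 (tripO E h2 x)) (z : AT ρ σ α a b2 c2 q) :
    cjA ρ σ α q h z = cjA ρ σ α q h1 (cjA ρ σ α q h2 z) := by
  apply Subtype.ext
  apply LinearEquiv.ext
  intro x
  obtain ⟨y, rfl⟩ := (tripO E h).surjective x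
  change cjE (tripO E h) z.1 (tripO E h y) = cjE (tripO E h1) (cjE (tripO E h2) z.1) _
  rw [cj_apply, hh y, cj_apply, cj_apply, hh]

theorem stab_le_stabs {b' c' : kˣ} {j l : Oct a b c} (h : Trip a b' c' gi j l) :
    stab ρ σ α q h ≤ stabs ρ σ α a b c q := fun _ hz =>
  Subgroup.subset_closure ⟨b', c', j, l, h, hz⟩

theorem stab0_le_stabs : stab0 ρ σ α a b c q ≤ stabs ρ σ α a b c q := by
  rw [← stab_std (trip_std : Trip a b c (gi : Oct a b c) gj gl)]
  exact stab_le_stabs _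

theorem cjA_mem_stabs {b1 c1 : kˣ} {j1 l1 : Oct a b c} (h1 : Trip a b1 c1 gi j1 l1)
    {z : AT ρ σ α a b1 c1 q} (hz : z ∈ stabs ρ σ α a b1 c1 q) :
    cjA ρ σ α q h1 z ∈ stabs ρ σ α a b c q := by
  have key : stabs ρ σ α a b1 c1 q ≤
      (stabs ρ σ α a b c q).comap (cjA ρ σ α q h1 : AT ρ σ α a b1 c1 q →* AT ρ σ α a b c q) := by
    rw [stabs, Subgroup.closure_le]
    rintro z ⟨b2, c2, j2, l2, h2, hz⟩
    obtain ⟨z0, hz0, rfl⟩ := exists_of_mem_stab h2 hz
    obtain ⟨j, l, h, hh⟩ := exists_comp (E := E) h1 h2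
    change cjA ρ σ α q h1 (cjA ρ σ α q h2 z0) ∈ stabs ρ σ α a b c q
    rw [← cjA_comp h1 h2 h hh]
    exact stab_le_stabs h ((cjA_mem_stab h).2 hz0)
  exact key hz

end H691

end Vale.Agent.P011.D4T
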