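import Vale.Agent.P011.D4T.H691.Std
import Vale.Agent.P011.D4T.H657.Line

/-!
Block D4T (helper691): every plane is a translate of the standard plane.
-/

open NumberField Topology

set_option linter.unusedSectionVars false

namespace Vale.Agent.P011.D4T

open Vale.Agent.P011.MPQ Vale.Agent.P011.D4 Vale.Agent.P011.D4.Oct Vale.Agent.P011.E6

namespace H691

section alg

variable {k L E : Type} [Field k] [Field L] [Field E] [Algebra k L] [Algebra k E] [Algebra L E]
  [IsScalarTower k L E] [NeZero (2 : k)] [NeZero (2 : E)] {ρ σ : E ≃ₐ[k] E} {ρL : L ≃ₐ[k] L}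
  {α : E} {a b c : kˣ} {q : Lˣ}

/-- The plane of `v` is a translate of the standard plane. -/
def PP (ρ σ : E ≃ₐ[k] E) (α : E) (q : Lˣ) {a b c : kˣ} (v : OctL E a b c) : Prop :=
  ∃ y ∈ stabs ρ σ α a b c q, ∃ t : E, t ≠ 0 ∧ y.1 (tri ρ v (Jm ρ σ α q v)) = t • ep α

theorem tri_AT {z : OctL E a b c ≃ₗ[E] OctL E a b c} {κ : Lˣ} (h : IsKap ρ z κ)
    (x y : OctL E a b c) : tri ρ (z x) (z y) = (algebraMap L E (κ : L))⁻¹ • z (tri ρ x y) := by
  have h0 : algebraMap L E (κ : L) ≠ 0 :=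
    (map_ne_zero_iff _ (algebraMap L E).injective).2 κ.ne_zero
  rw [h, smul_smul, inv_mul_cancel₀ h0, one_smul]

theorem pt_AT (z : AT ρ σ α a b c q) {v : OctL E a b c} (hv : Pt ρ v) : Pt ρ (z.1 v) := by
  refine ⟨fun h => hv.1 (z.1.injective (h.trans (map_zero z.1).symm)), ?_⟩
  rw [tri_AT (isKap_kap z), hv.2, map_zero, smul_zero]

theorem nb_AT (z : AT ρ σ α a b c q) {v w : OctL E a b c} (h : Nb ρ v w) :
    Nb ρ (z.1 v) (z.1 w) := by
  constructor
  · rw [tri_AT (isKap_kap z), h.1, map_zero, smul_zero]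
  · rw [tri_AT (isKap_kap z), h.2, map_zero, smul_zero]

theorem pt_trip {b' c' : kˣ} {j l : Oct a b c} (h : Trip a b' c' gi j l) {v : OctL E a b' c'}
    (hv : Pt ρ (tripO E h v)) : Pt ρ v := by
  refine ⟨fun h0 => hv.1 (by rw [h0, map_zero]), ?_⟩
  apply (tripO E h).injective
  rw [tripO_tri, hv.2, map_zero]

theorem nb_trip {b' c' : kˣ} {j l : Oct a b c} (h : Trip a b' c' gi j l) {v w : OctL E a b' c'}
    (hv : Nb ρ (tripO E h v) (tripO E h w)) : Nb ρ v w := by
  constructor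
  · apply (tripO E h).injective
    rw [tripO_tri, hv.1, map_zero]
  · apply (tripO E h).injective
    rw [tripO_tri, hv.2, map_zero]

theorem tripO_ep' {b' c' : kˣ} {j l : Oct a b c} (h : Trip a b' c' gi j l) :
    tripO E h (ep α) = ep α := by
  rw [tripO_apply]
  simp only [emb, qemb, ep, oup_gi, QuaternionAlgebra.re_zero, QuaternionAlgebra.imI_zero,
    QuaternionAlgebra.imJ_zero, QuaternionAlgebra.imK_zero, zero_smul, add_zero, zero_mul]
  apply ext8 <;> simp [gi] <;> first | exact mul_zero _ | exact mul_one _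

theorem PP_trip {b' c' : kˣ} {j l : Oct a b c} (h : Trip a b' c' gi j l) {v : OctL E a b' c'}
    (hv : PP ρ σ α q v) : PP ρ σ α q (tripO E h v) := by
  obtain ⟨y, hy, t, ht, h1⟩ := hv
  refine ⟨cjA ρ σ α q h y, cjA_mem_stabs h hy, t, ht, ?_⟩
  rw [← tripO_Jm, ← tripO_tri]
  change cjE (tripO E h) y.1 _ = _
  rw [cj_apply, h1, map_smul, tripO_ep']

theorem PP_of_AT {y : AT ρ σ α a b c q} (hy : y ∈ stabs ρ σ α a b c q) {v : OctL E a b c}
    (hv : PP ρ σ α q (y.1 v)) : PP ρ σ α q v := by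
  obtain ⟨y2, hy2, t, ht, h1⟩ := hv
  have h0 : algebraMap L E (kap y : L) ≠ 0 :=
    (map_ne_zero_iff _ (algebraMap L E).injective).2 (kap y).ne_zero
  refine ⟨y2 * y, Subgroup.mul_mem _ hy2 hy, algebraMap L E (kap y : L) * t,
    mul_ne_zero h0 ht, ?_⟩
  change y2.1 (y.1 _) = _
  rw [isKap_kap y, y.2.2, map_smul, h1, smul_smul]

end alg

section line

variable {k L E : Type} [Field k] [NumberField k] [Field L] [Field E] [Algebra k L] [Algebra k E]
  [Algebra L E] [IsScalarTower k L E] [NeZero (2 : E)] {ρ σ : E ≃ₐ[k] E} {ρL : L ≃ₐ[k] L} {α : E}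
  {a b c : kˣ} {q : Lˣ} (H : Hy ρ σ ρL α a b c q)

include H

theorem line1 (s t : E) (h : s ≠ 0 ∨ t ≠ 0) :
    PP ρ σ α q (s • (ep α * gl) + t • ((1 - ep α) * (gj * gl)) : OctL E a b c) := by
  obtain ⟨z, hz, r, hr, h1⟩ := exists_line H s t h
  refine ⟨z⁻¹, Subgroup.inv_mem _ (stab0_le_stabs hz), r⁻¹, inv_ne_zero hr, ?_⟩
  apply z.1.injective
  rw [map_smul, h1, smul_smul, inv_mul_cancel₀ hr, one_smul]
  change (z * z⁻¹ : AT ρ σ α a b c q).1 _ = _
  rw [mul_inv_cancel]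
  rfl

/-- The elements of the standard line. -/
theorem tri_line (s t s' t' : E) :
    tri ρ (⟨0, mk4 (up E a) (up E b) α s 0 t 0⟩ : OctL E a b c)
      ⟨0, mk4 (up E a) (up E b) α s' 0 t' 0⟩ = 0 := by
  have hα : α * α = ((up E a : Eˣ) : E) := H.α2
  apply Oct.ext
  · simp only [tri, fst_mul, Nei.o1, Nei.o2, fst_star, snd_star, star_zero, qmap_zero, zero_mul,
      zero_add]
    have h1 : ∀ y : Qt (up E a) (up E b), qmap ρ (-y) = -qmap ρ y := fun y => by
      ext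
      · exact map_neg ρ y.re
      · exact map_neg ρ y.imI
      · exact map_neg ρ y.imJ
      · exact map_neg ρ y.imK
    rw [h1, h1, h1, star_neg, neg_mul_neg, qmap_mk4 H.ρα, qmap_mk4 H.ρα, qmap_mk4 H.ρα,
      star_mk4, mk4_mul hα]
    simp only [map_zero, mul_zero, zero_mul, add_zero, neg_zero, mk4_zero, smul_zero]
    rfl
  · simp only [tri, snd_mul, Nei.o1, Nei.o2, fst_star, snd_star, star_zero, qmap_zero, zero_mul,
      mul_zero, add_zero]
    rfl

theorem step0 {v : OctL E a b c} (hv : Pt ρ v) (h : Nb ρ (ep α * oup E (gl : Oct a b c)) v) :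
    PP ρ σ α q v := by
  obtain ⟨s, t, f, f1, f2, f3, f4, hf⟩ := nb_ep H hv h
  by_cases hf0 : f = 0
  · rw [hf0, oup_zero, mul_zero, smul_zero, add_zero, oup_gl] at hf
    have hs : s ≠ 0 := by
      rintro rfl
      rw [zero_smul] at hf
      exact hv.1 hf
    have h1 := line1 H s 0 (Or.inl hs)
    rwa [zero_smul, add_zero, ← hf] at h1
  · -- the element `j'` with `f = j' l`
    have ha0 : (a : k) ≠ 0 := a.ne_zero
    have hb0 : (b : k) ≠ 0 := b.ne_zero
    have hc0 : (c : k) ≠ 0 := c.ne_zero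
    have g0 : f.fst.re = 0 := by
      simp [dot] at f1
      exact f1
    have g1 : f.fst.imI = 0 := by
      simp [dot, gi] at f2
      exact f2
    have g2 : f.snd.re = 0 := by
      simp [dot, gl] at f3
      exact f3
    have g3 : f.snd.imI = 0 := by
      simp [dot, gi, gl] at f4
      exact f4
    obtain ⟨j', hj'⟩ : ∃ j' : Oct a b c, j' =
      ⟨⟨0, 0, f.snd.imJ, f.snd.imK⟩, ⟨0, 0, f.fst.imJ / c, f.fst.imK / c⟩⟩ := ⟨_, rfl⟩
    have hjl : j' * gl = f := by
      rw [hj']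
      apply ext8 <;> simp [gl, g0, g1, g2, g3] <;> field_simp
    have hj0 : j' ≠ 0 := by
      intro h0
      apply hf0
      rw [← hjl, h0, zero_mul]
    have hn : -norm j' ≠ 0 := neg_ne_zero.2 fun h0 => hj0 (H.hdiv _ h0)
    have hsj : star j' = -j' := by
      rw [hj']
      apply ext8 <;> simp
    have ht : Trip a (Units.mk0 _ hn) c gi j' gl := by
      have hs : Trip a b c (gi : Oct a b c) gj gl := trip_std
      refine ⟨hs.si, hsj, hs.sl, hs.ii, norm_eq_of_sq hsj, hs.ll, ?_, hs.il, ?_, ?_⟩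
      · rw [hj']; simp [dot, gi]
      · rw [hj']; simp [dot, gl]
      · rw [hj']; simp [dot, gi, gl]
    have hst : s ≠ 0 ∨ t ≠ 0 := by
      by_contra hcon
      push Not at hcon
      rw [hcon.1, hcon.2, zero_smul, zero_smul, add_zero] at hf
      exact hv.1 hf
    have h1 := PP_trip ht (line1 (hyTrip H ht) s t hst)
    have e1 : tripO E ht (s • (ep α * gl) + t • ((1 - ep α) * (gj * gl))) = v := by
      have e2 : tripO E ht gl = oup E gl := by
        rw [← oup_gl, tripO_oup, B.emb_gl]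
      have e3 : tripO E ht gj = oup E j' := by
        rw [← oup_gj, tripO_oup, B.emb_gj]
      have e4 : tripO E ht 1 = 1 := hom_one (tripO_mul ht)
      rw [map_add, map_smul, map_smul, tripO_mul, tripO_mul, tripO_mul, map_sub, e4, e2, e3,
        tripO_ep', ← oup_mul, hjl, hf]
    rwa [e1] at h1

/-- Planes of neighbours. -/
theorem step {v v' : OctL E a b c} (hv : Pt ρ v) (hv' : Pt ρ v') (hn : Nb ρ v v')
    (hP : PP ρ σ α q v) : PP ρ σ α q v' := by
  obtain ⟨y, hy, t, ht, h1⟩ := hP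
  have hκ : algebraMap L E (kap y : L) ≠ 0 :=
    (map_ne_zero_iff _ (algebraMap L E).injective).2 (kap y).ne_zero
  have h2 : tri ρ (y.1 v) (Jm ρ σ α q (y.1 v)) =
      ((algebraMap L E (kap y : L))⁻¹ * t) • ep α := by
    rw [← y.2.2, tri_AT (isKap_kap y), h1, smul_smul]
  obtain ⟨s, w, hs, hw, w1, w2, h3⟩ := sing_ep H (pt_AT y hv)
    (mul_ne_zero (inv_ne_zero hκ) ht) h2
  have hstd : Trip a b c (gi : Oct a b c) gj gl := trip_std
  have hi1 : dot (gi : Oct a b c) 1 = 0 := by simp [dot, gi]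
  have hi0 : (gi : Oct a b c) ≠ 0 := by
    intro h0
    have h5 := congrArg (fun x : Oct a b c => x.fst.imI) h0
    simp [gi] at h5
  obtain ⟨a', b', c', m, hm⟩ := D4.H369.trip_of_ij H.hdiv hi1 hi0 w1 hw w2
  have ht1 : Trip a c' b' gi m w := by
    refine ⟨hm.si, hm.sl, hm.sj, hstd.ii, hm.ll, hm.jj, hm.il, hm.ij, ?_, ?_⟩
    · rw [dot_comm]; exact hm.jl
    · rw [dot_mul_left, hm.si, neg_mul, dot_neg_right, dot_comm, hm.ijl, neg_zero]
  have e1 : y.1 v = s • tripO E ht1 (ep α * oup E gl) := by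
    rw [h3, tripO_mul, tripO_ep', tripO_oup, B.emb_gl]
  obtain ⟨x', hx'⟩ := (tripO E ht1).surjective (y.1 v')
  have h4 : Pt ρ x' := pt_trip ht1 (by rw [hx']; exact pt_AT y hv')
  have h5 : Nb ρ (ep α * oup E gl) x' := by
    apply nb_trip ht1
    have h6 := nb_AT y hn
    rw [e1, ← hx'] at h6
    have hs1 : ρ s ≠ 0 := (map_ne_zero_iff ρ ρ.injective).2 hs
    have hs2 : ρ (ρ s) ≠ 0 := (map_ne_zero_iff ρ ρ.injective).2 hs1
    refine ⟨?_, ?_⟩
    · have h7 := h6.1
      rw [tri_smul_left] at h7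
      exact (smul_eq_zero.1 h7).resolve_left hs1
    · have h7 := h6.2
      rw [tri_smul_right] at h7
      exact (smul_eq_zero.1 h7).resolve_left hs2
  have h7 := PP_trip ht1 (step0 (hyTrip H ht1) h4 h5)
  rw [hx'] at h7
  exact PP_of_AT hy h7

end line

end H691

section main

variable {k L E : Type} [Field k] [NumberField k] [Field L] [Field E] [Algebra k L] [Algebra k E]
  [Algebra L E] [IsScalarTower k L E] [NeZero (2 : E)] {ρ σ : E ≃ₐ[k] E} {ρL : L ≃ₐ[k] L} {α : E}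
  {a b c : kˣ} {q : Lˣ} (H : Hy ρ σ ρL α a b c q)

include H

/-- GEN1: every plane is a translate of the standard plane. -/
theorem gen1 {v : OctL E a b c} (hv : Pt ρ v) : ∃ y ∈ stabs ρ σ α a b c q, ∃ t : E, t ≠ 0 ∧
    y.1 (tri ρ v (Jm ρ σ α q v)) = t • ep α := by
  have hα : α * α = ((up E a : Eˣ) : E) := H.α2
  -- the standard singular vector and a neighbour
  have h0 : ∀ s t : E, s ≠ 0 ∨ t ≠ 0 →
      (⟨0, mk4 (up E a) (up E b) α s 0 t 0⟩ : OctL E a b c) ≠ 0 := by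
    intro s t hst he
    have h1 : mk4 (up E a) (up E b) α s 0 t 0 = mk4 (up E a) (up E b) α 0 0 0 0 := by
      rw [mk4_zero]
      exact congrArg (fun x : OctL E a b c => x.snd) he
    obtain ⟨e1, -, e2, -⟩ := mk4_inj hα h1
    rcases hst with h | h
    · exact h e1
    · exact h e2
  have hP0 : Pt ρ (⟨0, mk4 (up E a) (up E b) α 1 0 0 0⟩ : OctL E a b c) :=
    ⟨h0 1 0 (Or.inl one_ne_zero), H691.tri_line H 1 0 1 0⟩
  have hP1 : Pt ρ (⟨0, mk4 (up E a) (up E b) α 0 0 1 0⟩ : OctL E a b c) :=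
    ⟨h0 0 1 (Or.inr one_ne_zero), H691.tri_line H 0 1 0 1⟩
  have hne : ∀ t : E, (⟨0, mk4 (up E a) (up E b) α 0 0 1 0⟩ : OctL E a b c) ≠
      t • (⟨0, mk4 (up E a) (up E b) α 1 0 0 0⟩ : OctL E a b c) := by
    intro t he
    have h1 : mk4 (up E a) (up E b) α 0 0 1 0 = mk4 (up E a) (up E b) α (t * 1) (t * 0) (t * 0)
        (t * 0) := by
      rw [← smul_mk4]
      exact congrArg (fun x : OctL E a b c => x.snd) he
    obtain ⟨-, -, e2, -⟩ := mk4_inj hα h1
    rw [mul_zero] at e2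
    exact one_ne_zero e2
  obtain ⟨u, z, hu, hz, g1, g2, g3⟩ := path H.ρ3 hP0 hv
    ⟨_, hP1, ⟨H691.tri_line H 1 0 0 1, H691.tri_line H 0 1 1 0⟩, hne⟩
  have hb : H691.PP ρ σ α q (⟨0, mk4 (up E a) (up E b) α 1 0 0 0⟩ : OctL E a b c) := by
    rw [← line_vec H.α2]
    exact H691.line1 H 1 0 (Or.inl one_ne_zero)
  exact H691.step H hz hv g3 (H691.step H hu hz g2 (H691.step H hP0 hu g1 hb))

end main

end Vale.Agent.P011.D4T
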