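import Vale.Agent.P011.D4T.H691.StabN
import Vale.Agent.P011.D4T.H691.Gen1
import Vale.Agent.P011.D4T.H63.PartB
import Vale.Agent.P011.D4T.H64.F4
import Vale.Agent.P011.D4T.H369.Gen2
import Vale.Agent.P011.D4T.H659.GenOf

/-!
Block D4T (helper691): the final assembly.
-/

open NumberField Topology

set_option linter.unusedSectionVars false

namespace Vale.Agent.P011.D4T

open Vale.Agent.P011.MPQ Vale.Agent.P011.D4 Vale.Agent.P011.D4.Oct Vale.Agent.P011.E6

section fin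

variable {k L E : Type} [Field k] [NumberField k] [Field L] [NumberField L] [Field E]
  [Algebra k L] [Algebra k E] [Algebra L E]
  [IsScalarTower k L E] [NeZero (2 : E)] {ρ σ : E ≃ₐ[k] E} {ρL : L ≃ₐ[k] L} {α : E}
  {a b c : kˣ} {q : Lˣ} (H : Hy ρ σ ρL α a b c q)

include H

/-- KC + Z5: the parts of the same class in the centralisers of two involutions of the standard
plane are congruent. -/
theorem part {b' c' : kˣ} {j l : Oct a b c} (h : Trip a b' c' gi j l) {D : k}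
    (hD : GoodD a b q D) (hD' : GoodD a b' q D) {x y : L} (κ : Lˣ)
    (hκ : (κ : L) = x ^ 2 - algebraMap k L D * y ^ 2) :
    ∃ w w' : AT ρ σ α a b c q, w ∈ stab0 ρ σ α a b c q ∧ w' ∈ stab ρ σ α q h ∧
      IsKap ρ w.1 κ ∧ IsKap ρ w'.1 κ ∧ IsN ρ σ α a b c q (w * w'⁻¹) :=
  part_of H (fun _ _ _ _ _ _ _ _ _ _ _ _ _ H1 _ hv => gen1 H1 hv)
    (fun _ _ _ _ _ _ _ _ _ _ _ _ _ H1 _ _ _ _ h _ hz _ hk hc => stab_N H1 h hz hk hc)
    h hD hD' κ hκ

/-- The sign of the class of an element which commutes with the standard involution. -/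
theorem sign_stab0 {z : AT ρ σ α a b c q} (hz : z ∈ stab0 ρ σ α a b c q) :
    ∃ (t κ' : Lˣ), t ∈ SqL k L ∧ kap z = t * κ' ∧
      ∀ w : L →+* ℝ, w (algebraMap k L a) < 0 → 0 < w (κ' : L) := by
  obtain ⟨x0, x, s, l, h1, h2⟩ := cent H hz
  obtain ⟨z1, -, hz1, hz2⟩ := exists_z H x0 x s h1
  have hν0 : nrd x ≠ 0 := by
    intro h0
    rw [h0, zero_mul, zero_mul, mul_zero] at h1
    exact pow_ne_zero 2 s.ne_zero ((map_eq_zero_iff _ (algebraMap k L).injective).1 h1.symm)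
  have hν1 : ρL (nrd x) ≠ 0 := (map_ne_zero_iff ρL ρL.injective).2 hν0
  have e1 : z = H.scal l * z1 := by
    apply Subtype.ext
    apply LinearEquiv.ext
    intro y
    rw [h2, ← hz2, ← H.scal_apply]
    rfl
  have e2 : kap z1 = (Units.mk0 (ρL (nrd x)) hν1)⁻¹ := by
    apply kap_eq
    apply hz1
    rw [Units.val_inv_eq_inv_val]
    exact mul_inv_cancel₀ hν1
  refine ⟨kap (H.scal l), (Units.mk0 (ρL (nrd x)) hν1)⁻¹, scal_mem_SqL H l, ?_, fun w hw => ?_⟩
  · rw [e1, kap_mul, e2]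
  · rw [Units.val_inv_eq_inv_val, map_inv₀, inv_pos]
    change 0 < w (ρL (nrd x))
    -- the place `w ∘ ρL`
    let w' : L →+* ℝ := w.comp (ρL : L →+* L)
    have hw' : w' (algebraMap k L a) < 0 := by
      change w (ρL (algebraMap k L a)) < 0
      rw [AlgEquiv.commutes]
      exact hw
    obtain ⟨hb, -, hq⟩ := H.hre w' hw'
    change 0 < w' (nrd x)
    have hne : w' (nrd x) ≠ 0 := (map_ne_zero_iff w' w'.injective).2 hν0
    have hge : 0 ≤ w' (nrd x) := by
      have hA : w' ((up L a : Lˣ) : L) < 0 := hw'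
      have hB : w' ((q * up L b : Lˣ) : L) < 0 := by
        rw [Units.val_mul, map_mul]
        exact mul_neg_of_pos_of_neg hq hb
      simp only [nrd, map_add, map_sub, map_mul, map_pow]
      have h3 := mul_nonneg (neg_nonneg.2 hA.le) (sq_nonneg (w' x.imI))
      have h4 := mul_nonneg (neg_nonneg.2 hB.le) (sq_nonneg (w' x.imJ))
      have h5 := mul_nonneg (mul_nonneg_of_nonpos_of_nonpos hA.le hB.le) (sq_nonneg (w' x.imK))
      have h6 := sq_nonneg (w' x.re)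
      linarith
    exact lt_of_le_of_ne hge (Ne.symm hne)

/-- The index set of the involutions of the standard plane. -/
abbrev TI (a b c : kˣ) : Type :=
  {p : kˣ × kˣ × Oct a b c × Oct a b c // Trip a p.1 p.2.1 gi p.2.2.1 p.2.2.2}

omit H in
theorem iSup_stab (h : stabs ρ σ α a b c q = ⊤) :
    (⊥ : Subgroup (AT ρ σ α a b c q)) ⊔ ⨆ i : TI a b c, stab ρ σ α q i.2 = ⊤ := by
  rw [bot_sup_eq, eq_top_iff, ← h, stabs, Subgroup.closure_le]
  rintro z ⟨b', c', j, l, h, hz⟩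
  exact (le_iSup (fun i : TI a b c => stab ρ σ α q i.2) ⟨(b', c', j, l), h⟩) hz

/-- The centralisers are congruent to the centraliser of the standard involution. -/
theorem stab_le {b' c' : kˣ} {j l : Oct a b c} (h : Trip a b' c' gi j l) :
    stab ρ σ α q h ≤ H.NA ⊔ stab0 ρ σ α a b c q := by
  intro z hz
  have H' : Hy ρ σ ρL α a b' c' q := H691.hyTrip H h
  -- the class of `z`
  obtain ⟨z', hz', rfl⟩ := H691.exists_of_mem_stab h hz
  obtain ⟨t, κ', ht, hkt, hs⟩ := sign_stab0 H' hz'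
  rw [← H691.kap_cjA h] at hkt
  set z := H691.cjA ρ σ α q h z' with hzdef
  obtain ⟨D, x, y, e, hD, hp⟩ := F4 (k := k) (L := L) H.h3 H.ρ1 (a := a) (b := b) (b' := b')
    (q := q) (aniso_of_trip H.hdiv trip_std).1 (aniso_of_trip H.hdiv h).1
    (fun w hw => ⟨(H.hre w hw).1, (H'.hre w hw).1, (H.hre w hw).2.2⟩) κ' hs
  have hne : ∀ i, x i ^ 2 - algebraMap k L (D i) * y i ^ 2 ≠ 0 := by
    intro i h0
    have h1 : ∏ i, (x i ^ 2 - algebraMap k L (D i) * y i ^ 2) = 0 :=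
      Finset.prod_eq_zero (Finset.mem_univ i) h0
    rw [h1, mul_zero] at hp
    exact κ'.ne_zero hp
  choose w w' hw hw' hwk hwk' hww using fun i =>
    part H h (hD i).1 (hD i).2 (x := x i) (y := y i) (Units.mk0 _ (hne i)) rfl
  -- the product of the parts
  have key : ∀ i, w' i ∈ H.NA ⊔ stab0 ρ σ α a b c q := by
    intro i
    have h1 : w i * (w' i)⁻¹ ∈ H.NA := hww i
    have h2 : w' i = (w i * (w' i)⁻¹)⁻¹ * w i := by group
    rw [h2]
    exact Subgroup.mul_mem _ (Subgroup.mem_sup_left (H.NA.inv_mem h1))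
      (Subgroup.mem_sup_right (hw i))
  let u : AT ρ σ α a b c q := w' 0 * w' 1 * w' 2
  have hu : u ∈ stab ρ σ α q h := Subgroup.mul_mem _ (Subgroup.mul_mem _ (hw' 0) (hw' 1)) (hw' 2)
  have hu' : u ∈ H.NA ⊔ stab0 ρ σ α a b c q :=
    Subgroup.mul_mem _ (Subgroup.mul_mem _ (key 0) (key 1)) (key 2)
  have hku : kap u = Units.mk0 _ (hne 0) * Units.mk0 _ (hne 1) * Units.mk0 _ (hne 2) := by
    rw [kap_mul, kap_mul, kap_eq (hwk' 0), kap_eq (hwk' 1), kap_eq (hwk' 2)]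
  have hκ : κ' = up L e * kap u := by
    apply Units.ext
    rw [hp, hku, Fin.prod_univ_three]
    rfl
  have hcl : kap (z * u⁻¹) ∈ SqL k L := by
    rw [kap_mul, kap_inv, hkt, hκ]
    have : t * (up L e * kap u) * (kap u)⁻¹ = t * up L e := by
      rw [mul_assoc, mul_inv_cancel_right]
    rw [this]
    refine Subgroup.mul_mem _ ht ?_
    rw [mem_SqL]
    exact ⟨e, 1, by rw [one_pow, mul_one]⟩
  have hN : z * u⁻¹ ∈ H.NA :=
    stab_N H h (Subgroup.mul_mem _ hz (Subgroup.inv_mem _ hu)) (isKap_kap _) hcl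
  have hzu : z = z * u⁻¹ * u := by group
  rw [hzu]
  exact Subgroup.mul_mem _ (Subgroup.mem_sup_left hN) hu'

omit H in
/-- The end of the proof, with explicit arguments. -/
theorem fin' {A Θ ι : Type} [Group A] [CommGroup Θ] (N : Subgroup A) (hn : N.Normal)
    (S0 : Subgroup Θ) (f : A →* Θ) (S : ι → Subgroup A)
    (ha : ∀ i, ∀ z ∈ S i, f z ∈ S0 → z ∈ N) (hc : ⊥ ⊔ ⨆ i, S i = ⊤) (hN : ∀ z ∈ N, f z ∈ S0)
    (i₀ : ι) (hd : ∀ i, S i ≤ N ⊔ S i₀) {g : A} (hg : f g ∈ S0) : g ∈ N := by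
  have key : ∀ z : A, ((QuotientGroup.mk' S0).comp f) z = 1 ↔ f z ∈ S0 := fun z =>
    QuotientGroup.eq_one_iff (f z)
  exact fin (cl := (QuotientGroup.mk' S0).comp f) (P := ⊥) (H := S)
    (fun i z hz h => ha i z hz ((key z).1 h)) (fun _ => bot_le) hc
    (fun z hz => MonoidHom.mem_ker.2 ((key z).2 (hN z hz))) i₀ hd ((key g).2 hg)

/-- The elements of class one. -/
theorem mem_NA {z : AT ρ σ α a b c q} (hz : kap z ∈ SqL k L) : z ∈ H.NA := by
  have ha : ∀ i : TI a b c, ∀ z ∈ stab ρ σ α q i.2, kapHom ρ σ α a b c q z ∈ SqL k L → z ∈ H.NA :=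
    fun i z hz hc => stab_N H i.2 hz (isKap_kap z) hc
  have hd : ∀ i : TI a b c, stab ρ σ α q i.2 ≤
      H.NA ⊔ stab ρ σ α q (trip_std : Trip a b c (gi : Oct a b c) gj gl) := by
    intro i
    rw [stab_std]
    exact stab_le H i.2
  have hN : ∀ z ∈ H.NA, kapHom ρ σ α a b c q z ∈ SqL k L := fun z hz =>
    (clT_eq_one_iff (isKap_kap z)).1 (H.NA_le_ker hz)
  exact fin' H.NA H.NA_normal (SqL k L) (kapHom ρ σ α a b c q)
    (fun i : TI a b c => stab ρ σ α q i.2) ha (iSup_stab (gen_of H fun _ _ h => gen2 H h)) hN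
    ⟨(b, c, gj, gl), trip_std⟩ hd hz

theorem Rs_top {g : OctL E a b c ≃ₗ[E] OctL E a b c} (hg : g ∈ GT ρ σ α a b c q) :
    g ∈ Rs ρ σ α a b c q := by
  refine mem_of_isN H g hg (mem_NA H ?_)
  rw [kap_of_GT hg]
  exact Subgroup.one_mem _

/-- **D4T.** -/
theorem gt_top (N : Subgroup (GT ρ σ α a b c q)) (hN : N.index ≠ 0) : N = ⊤ := by
  have htop : fres (GT ρ σ α a b c q) = ⊤ := by
    rw [eq_top_iff]
    rintro ⟨g, hg⟩ -
    obtain ⟨h2, h3⟩ := mem_Rs.1 (Rs_top H hg)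
    exact h3
  exact fres_top_iff.1 htop N hN

end fin

end Vale.Agent.P011.D4T
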