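import Vale.Agent.P011.D4T.H691.Tr
import Vale.Agent.P011.D4T.H547.Cent4
import Vale.Agent.P011.D4T.H657.ZT
import Vale.Agent.P011.D4T.H553.Mix

/-!
Block D4T (helper691): the elements of class one in a centraliser.
-/

open NumberField Topology

set_option linter.unusedSectionVars false

namespace Vale.Agent.P011.D4T

open Vale.Agent.P011.MPQ Vale.Agent.P011.D4 Vale.Agent.P011.D4.Oct Vale.Agent.P011.E6

section alg

variable {k L E : Type} [Field k] [Field L] [Field E] [Algebra k L] [Algebra k E] [Algebra L E]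
  [IsScalarTower k L E] {ρ σ : E ≃ₐ[k] E} {ρL : L ≃ₐ[k] L} {α : E}
  {a b c : kˣ} {q : Lˣ}

theorem psiL_smul (m : L) (x : Qt (up L a) (q * up L b)) :
    (psiL α q (m • x) : Qt (up E a) (up E b)) = algebraMap L E m • psiL α q x := by
  apply QuaternionAlgebra.ext
  · change algebraMap L E (m * x.re) = algebraMap L E m * algebraMap L E x.re
    rw [map_mul]
  · change algebraMap L E (m * x.imI) = algebraMap L E m * algebraMap L E x.imI
    rw [map_mul]
  · change (algebraMap L E (q : L) * (algebraMap L E (m * x.imJ) + algebraMap L E (m * x.imK) * α) +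
        (algebraMap L E (m * x.imJ) - algebraMap L E (m * x.imK) * α)) / 2 =
      algebraMap L E m *
        ((algebraMap L E (q : L) * (algebraMap L E x.imJ + algebraMap L E x.imK * α) +
        (algebraMap L E x.imJ - algebraMap L E x.imK * α)) / 2)
    rw [map_mul, map_mul]
    ring
  · change (algebraMap L E (q : L) * (algebraMap L E (m * x.imJ) + algebraMap L E (m * x.imK) * α) -
        (algebraMap L E (m * x.imJ) - algebraMap L E (m * x.imK) * α)) / (2 * α) =
      algebraMap L E m *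
        ((algebraMap L E (q : L) * (algebraMap L E x.imJ + algebraMap L E x.imK * α) -
        (algebraMap L E x.imJ - algebraMap L E x.imK * α)) / (2 * α))
    rw [map_mul, map_mul]
    ring

theorem nrd_smulQ {F : Type} [Field F] {A B : Fˣ} (m : F) (x : Qt A B) :
    nrd (m • x) = m ^ 2 * nrd x := by
  simp only [nrd, QuaternionAlgebra.re_smul, QuaternionAlgebra.imI_smul,
    QuaternionAlgebra.imJ_smul, QuaternionAlgebra.imK_smul, smul_eq_mul]
  ring

theorem star_smulQ {F : Type} [Field F] {A B : Fˣ} (m : F) (x : Qt A B) :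
    star (m • x) = m • star x := by
  ext <;> simp

variable (H : Hy ρ σ ρL α a b c q)

include H

/-- The scalars can be taken out of `z(x₀, x; s)`. -/
theorem zF_scal {x0 : Qt a b} {x : Qt (up L a) (q * up L b)} {s t s' : kˣ} {m : Lˣ}
    (hx : nrd x = algebraMap k L (t : k))
    (hs : algebraMap k L (s : k) = m * ρL m * ρL (ρL m) * algebraMap k L (s' : k))
    (y : OctL E a b c) :
    zF ρ ρL α q x0 ((m : L) • x) s y =
      algebraMap L E (m * ρL (ρL m)) •
        zF ρ ρL α q (((t : k) ^ 2 / (s' : k)) • x0) x (t ^ 2) y := by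
  have hm0 : (m : L) ≠ 0 := m.ne_zero
  have hm1 : ρL (m : L) ≠ 0 := (map_ne_zero_iff ρL ρL.injective).2 hm0
  have hm2 : ρL (ρL (m : L)) ≠ 0 := (map_ne_zero_iff ρL ρL.injective).2 hm1
  have hs0 : algebraMap k L (s' : k) ≠ 0 :=
    (map_ne_zero_iff _ (algebraMap k L).injective).2 s'.ne_zero
  have ht0 : algebraMap k L (t : k) ≠ 0 :=
    (map_ne_zero_iff _ (algebraMap k L).injective).2 t.ne_zero
  have hq1 : ∀ (u : E) (z : Qt (up E a) (up E b)), qmap ρ (u • z) = ρ u • qmap ρ z := fun u z => by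
    apply QuaternionAlgebra.ext
    · exact map_mul ρ u z.re
    · exact map_mul ρ u z.imI
    · exact map_mul ρ u z.imJ
    · exact map_mul ρ u z.imK
  have hE : ∀ u : k, algebraMap k E u = algebraMap L E (algebraMap k L u) := fun u =>
    IsScalarTower.algebraMap_apply k L E u
  have hρm : ρ (algebraMap L E (m : L)) = algebraMap L E (ρL m) := H.ρL' _
  have hρm2 : ρ (algebraMap L E (ρL m)) = algebraMap L E (ρL (ρL m)) := H.ρL' _
  ext1
  · change psiL α q ((m : L) • x) * y.fst * star (qmap ρ (qmap ρ (psiL α q ((m : L) • x)))) =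
      algebraMap L E (m * ρL (ρL m)) •
        (psiL α q x * y.fst * star (qmap ρ (qmap ρ (psiL α q x))))
    rw [psiL_smul, hq1, hq1, star_smulQ, hρm, hρm2, smul_mul_assoc, smul_mul_assoc, mul_smul_comm,
      smul_smul, map_mul]
  · change (algebraMap L E (nrd ((m : L) • x) * ρL (ρL (nrd ((m : L) • x)))) /
        algebraMap k E (s : k)) •
        (qup E x0 * y.snd * star (qmap ρ (psiL α q ((m : L) • x)))) =
      algebraMap L E (m * ρL (ρL m)) •
        ((algebraMap L E (nrd x * ρL (ρL (nrd x))) / algebraMap k E ((t ^ 2 : kˣ) : k)) •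
        (qup E (((t : k) ^ 2 / (s' : k)) • x0) * y.snd * star (qmap ρ (psiL α q x))))
    have h1 : qup E (((t : k) ^ 2 / (s' : k)) • x0) =
        algebraMap k E ((t : k) ^ 2 / (s' : k)) • qup E x0 := by
      apply QuaternionAlgebra.ext
      · exact map_mul (algebraMap k E) _ x0.re
      · exact map_mul (algebraMap k E) _ x0.imI
      · exact map_mul (algebraMap k E) _ x0.imJ
      · exact map_mul (algebraMap k E) _ x0.imK
    rw [psiL_smul, hq1, hρm, star_smulQ, mul_smul_comm, h1, smul_mul_assoc, smul_mul_assoc,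
      smul_smul, smul_smul, smul_smul]
    congr 1
    rw [nrd_smulQ, hx]
    simp only [map_mul, map_pow, AlgEquiv.commutes, hE, map_div₀, Units.val_pow_eq_pow_val]
    rw [hs]
    simp only [map_mul]
    have g0 : algebraMap L E (m : L) ≠ 0 := (map_ne_zero_iff _ (algebraMap L E).injective).2 hm0
    have g1 : algebraMap L E (ρL (m : L)) ≠ 0 :=
      (map_ne_zero_iff _ (algebraMap L E).injective).2 hm1
    have g2 : algebraMap L E (ρL (ρL (m : L))) ≠ 0 :=
      (map_ne_zero_iff _ (algebraMap L E).injective).2 hm2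
    have g3 : algebraMap L E (algebraMap k L (s' : k)) ≠ 0 :=
      (map_ne_zero_iff _ (algebraMap L E).injective).2 hs0
    have g4 : algebraMap L E (algebraMap k L (t : k)) ≠ 0 :=
      (map_ne_zero_iff _ (algebraMap L E).injective).2 ht0
    field_simp

end alg

section std

variable {k L E : Type} [Field k] [NumberField k] [Field L] [NumberField L] [Field E]
  [Algebra k L] [Algebra k E] [Algebra L E]
  [IsScalarTower k L E] [NeZero (2 : E)] {ρ σ : E ≃ₐ[k] E} {ρL : L ≃ₐ[k] L} {α : E}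
  {a b c : kˣ} {q : Lˣ} (H : Hy ρ σ ρL α a b c q)

include H

theorem stab0_N {z : AT ρ σ α a b c q} (hz : z ∈ stab0 ρ σ α a b c q) (hcl : kap z ∈ SqL k L) :
    IsN ρ σ α a b c q z := by
  obtain ⟨x0, x, s, l, h1, h2⟩ := cent H hz
  obtain ⟨z1, -, hz1, hz2⟩ := exists_z H x0 x s h1
  have hν0 : nrd x ≠ 0 := by
    intro h0
    rw [h0, zero_mul, zero_mul, mul_zero] at h1
    exact pow_ne_zero 2 s.ne_zero ((map_eq_zero_iff _ (algebraMap k L).injective).1 h1.symm)
  have hν1 : ρL (nrd x) ≠ 0 := (map_ne_zero_iff ρL ρL.injective).2 hν0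
  have e1 : z = H.scal l * z1 := by
    apply Subtype.ext
    apply LinearEquiv.ext
    intro y
    rw [h2, ← hz2, ← H.scal_apply]
    rfl
  have e2 : kap z1 = (Units.mk0 (ρL (nrd x)) hν1)⁻¹ := by
    apply kap_eq
    apply hz1
    rw [Units.val_inv_eq_inv_val]
    exact mul_inv_cancel₀ hν1
  -- the class of the reduced norm
  have e3 : Units.mk0 (ρL (nrd x)) hν1 ∈ SqL k L := by
    rw [e1, kap_mul, e2] at hcl
    have h3 := (SqL k L).mul_mem ((SqL k L).inv_mem hcl) (scal_mem_SqL H l)
    have e4 : (kap (H.scal l) * (Units.mk0 (ρL (nrd x)) hν1)⁻¹)⁻¹ * kap (H.scal l) =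
        Units.mk0 (ρL (nrd x)) hν1 := by
      rw [mul_inv, inv_inv, mul_comm (kap (H.scal l))⁻¹, mul_assoc, inv_mul_cancel, mul_one]
    rwa [e4] at h3
  obtain ⟨t, m1, h3⟩ := mem_SqL.1 e3
  obtain ⟨m, hm⟩ : ∃ m : Lˣ, (m : L) = ρL (ρL (m1 : L)) := ⟨Units.mk0 (ρL (ρL (m1 : L)))
    ((map_ne_zero_iff ρL ρL.injective).2 ((map_ne_zero_iff ρL ρL.injective).2 m1.ne_zero)), rfl⟩
  have h4 : nrd x = algebraMap k L (t : k) * (m : L) ^ 2 := by
    have h5 : ρL (nrd x) = algebraMap k L (t : k) * (m1 : L) ^ 2 := by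
      have := congrArg (fun u : Lˣ => (u : L)) h3
      exact this
    have h6 := congrArg (fun u => ρL (ρL u)) h5
    change ρL (ρL (ρL (nrd x))) = _ at h6
    rw [H.ρL3] at h6
    rw [h6, hm]
    simp only [map_mul, map_pow, AlgEquiv.commutes]
  obtain ⟨n, hn⟩ := H.exists_norm m
  obtain ⟨x', hx'⟩ : ∃ x' : Qt (up L a) (q * up L b), x' = (m : L)⁻¹ • x := ⟨_, rfl⟩
  have hm0 : (m : L) ≠ 0 := m.ne_zero
  have hxx : x = (m : L) • x' := by
    rw [hx', smul_smul, mul_inv_cancel₀ hm0, one_smul]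
  have hnx' : nrd x' = algebraMap k L (t : k) := by
    rw [hx', nrd_smulQ, h4]
    field_simp
  obtain ⟨s', hs'⟩ : ∃ s' : kˣ, s = n * s' := ⟨n⁻¹ * s, by rw [mul_inv_cancel_left]⟩
  have hs : algebraMap k L (s : k) = m * ρL m * ρL (ρL m) * algebraMap k L (s' : k) := by
    rw [hs', Units.val_mul, map_mul, hn]
  -- the norm of the first component
  have hn0 : algebraMap k L (n : k) ≠ 0 :=
    (map_ne_zero_iff _ (algebraMap k L).injective).2 n.ne_zero
  have h7 : nrd x0 * (t : k) ^ 3 = (s' : k) ^ 2 := by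
    apply (algebraMap k L).injective
    have h8 : algebraMap k L (nrd x0) * (algebraMap k L (t : k) ^ 3 * algebraMap k L (n : k) ^ 2) =
        (algebraMap k L (n : k) * algebraMap k L (s' : k)) ^ 2 := by
      rw [← map_mul (algebraMap k L) (n : k) (s' : k), ← Units.val_mul, ← hs',
        ← map_pow (algebraMap k L) (s : k) 2, ← h1, h4]
      simp only [map_mul, map_pow, AlgEquiv.commutes]
      rw [hn]
      ring
    rw [map_mul, map_pow, map_pow]
    have h9 : algebraMap k L (n : k) ^ 2 ≠ 0 := pow_ne_zero 2 hn0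
    apply mul_right_cancel₀ h9
    linear_combination h8
  have ht0 : (t : k) ≠ 0 := t.ne_zero
  have hs0 : (s' : k) ≠ 0 := s'.ne_zero
  have h10 : nrd (((t : k) ^ 2 / (s' : k)) • x0) = (t : k) := by
    rw [nrd_smulQ]
    field_simp
    linear_combination h7
  -- the scalar and the element of `GT`
  obtain ⟨r, hr⟩ : ∃ r : Lˣ, (r : L) = l * (m * ρL (ρL m)) * algebraMap k L (t : k) :=
    ⟨Units.mk0 _ (mul_ne_zero (mul_ne_zero l.ne_zero (mul_ne_zero hm0
      ((map_ne_zero_iff ρL ρL.injective).2 ((map_ne_zero_iff ρL ρL.injective).2 hm0))))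
      ((map_ne_zero_iff _ (algebraMap k L).injective).2 ht0)), rfl⟩
  have hg : ∀ y, ((H.scal r)⁻¹ * z : AT ρ σ α a b c q).1 y = (algebraMap k E (t : k))⁻¹ •
      zF ρ ρL α q (((t : k) ^ 2 / (s' : k)) • x0) x' (t ^ 2) y := by
    intro y
    have h11 : z.1 y = algebraMap L E (r : L) • ((algebraMap k E (t : k))⁻¹ •
        zF ρ ρL α q (((t : k) ^ 2 / (s' : k)) • x0) x' (t ^ 2) y) := by
      have hE : algebraMap k E (t : k) = algebraMap L E (algebraMap k L (t : k)) :=
        IsScalarTower.algebraMap_apply k L E _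
      have hE0 : algebraMap L E (algebraMap k L (t : k)) ≠ 0 :=
        (map_ne_zero_iff _ (algebraMap L E).injective).2
          ((map_ne_zero_iff _ (algebraMap k L).injective).2 ht0)
      rw [h2, hxx, zF_scal H hnx' hs, smul_smul, smul_smul, hr, hE]
      congr 1
      simp only [map_mul]
      field_simp
    apply (H.scal r).1.injective
    rw [H.scal_apply, H.scal_apply, ← h11, ← H.scal_apply]
    change (H.scal r * ((H.scal r)⁻¹ * z) : AT ρ σ α a b c q).1 y = z.1 y
    rw [mul_inv_cancel_left]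
  refine ⟨r, _, mix_mem H (s := t) h10 hnx' hg, fun y => ?_⟩
  rw [← H.scal_apply]
  change z.1 y = (H.scal r * ((H.scal r)⁻¹ * z) : AT ρ σ α a b c q).1 y
  rw [mul_inv_cancel_left]

theorem stab_N {b' c' : kˣ} {j l : Oct a b c} (h : Trip a b' c' gi j l) {z : AT ρ σ α a b c q}
    (hz : z ∈ stab ρ σ α q h) {κ : Lˣ} (hκ : IsKap ρ z.1 κ) (hcl : κ ∈ SqL k L) :
    IsN ρ σ α a b c q z := by
  obtain ⟨z', hz', rfl⟩ := H691.exists_of_mem_stab h hz
  refine H691.cjA_isN h (stab0_N (H691.hyTrip H h) hz' ?_)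
  rw [← H691.kap_cjA h, kap_eq hκ]
  exact hcl

end std

end Vale.Agent.P011.D4T
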